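import Vale.Agent.P297Z.Surf.AllOf

/-! P253, surfaces: roots of rational functions. The statement. -/

set_option linter.all false

namespace Vale.Agent.P297Z.Sf

variable {K : Type} [Field K] [Algebra ℂ K]

/-- A function whose orders along the curves outside `D` are divisible by `n` is an `n`-th
power. -/
def KUMS (S : Surf K) (D : Finset (Crv S.W)) : Prop :=
  ∀ (f : K) (n : ℕ), f ≠ 0 → 1 ≤ n → (∀ C : Crv S.W, C ∉ D → (n : ℤ) ∣ C.ord f) →
    ∃ g : K, g ^ n = f

end Vale.Agent.P297Z.Sf
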