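import Vale.Agent.P253Y.Kum.Defs
import Vale.Agent.P297Y.An.Fin
import Vale.Agent.P297Y.Alg.Penb
import Vale.Agent.P025.R2.H816.HK
import Vale.Agent.P297Z.Surf.NumI

/-! P253, surfaces: the irregularity vanishes. -/

set_option linter.all false

namespace Vale.Agent.P297Z.Sf

open Vale.Agent.P019P (CFF Plk gen)

variable {K : Type} [Field K] [Algebra ℂ K]

namespace KumA

/-- On a curve of positive genus some function with even orders is not a square. -/
theorem ex_nonsq (F : Type) [Field F] [Algebra ℂ F] [CFF ℂ F] (hg : 1 ≤ gen ℂ F) :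
    ∃ f : F, f ≠ 0 ∧ (∀ P : Plk ℂ F, ((2 : ℕ) : ℤ) ∣ P019P.ord P f) ∧ ¬ ∃ g : F, g ^ 2 = f := by
  have h1 := P025H816.card_HK (k := ℂ) (F := F) (n := 2) (by norm_num)
  have h2 : 1 < Nat.card (P025H816.HK ℂ F 2) := by
    rw [h1]
    exact Nat.one_lt_pow (by omega) (by norm_num)
  have h3 : Finite (P025H816.HK ℂ F 2) := Nat.finite_of_card_ne_zero (by omega)
  have h4 : Nontrivial (P025H816.HK ℂ F 2) := Finite.one_lt_card_iff_nontrivial.1 h2
  obtain ⟨x, hx⟩ := exists_ne (1 : P025H816.HK ℂ F 2)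
  obtain ⟨f, rfl⟩ := QuotientGroup.mk_surjective x
  refine ⟨((f : Fˣ) : F), Units.ne_zero _, f.2, fun h => hx ?_⟩
  rw [QuotientGroup.eq_one_iff, Subgroup.mem_subgroupOf]
  exact P025H816.mem_powU'.2 h

end KumA

/-- The base of a pencil is rational. -/
theorem KUMS.gen_zero {S : Surf K} {D : Finset (Crv S.W)} (h : KUMS S D) (P : Pen S) :
    gen ℂ P.k = 0 := by
  by_contra h0
  obtain ⟨f, hf, h1, h2⟩ := KumA.ex_nonsq P.k (Nat.one_le_iff_ne_zero.2 h0)
  have B := penb K S P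
  have hf' : (f : K) ≠ 0 := fun e => hf (Subtype.ext e)
  obtain ⟨g, hg⟩ := h f 2 hf' (by norm_num) fun C _ => by
    rcases B.dich C with h3 | ⟨p, h3⟩
    · rw [B.ord_hor C h3]
      exact dvd_zero _
    · rw [B.ord_over C p h3]
      exact Dvd.dvd.mul_left (h1 p) _
  have hgk : g ∈ P.k := by
    refine P.closed g ⟨Polynomial.X ^ 2 - Polynomial.C f, ?_, ?_⟩
    · exact (Polynomial.monic_X_pow_sub_C f (by norm_num)).ne_zero
    · simp only [map_sub, map_pow, Polynomial.aeval_X, Polynomial.aeval_C, hg]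
      exact sub_self _
  exact h2 ⟨⟨g, hgk⟩, Subtype.ext hg⟩

/-- The irregularity vanishes. -/
theorem KUMS.cech {S : Surf K} {D : Finset (Crv S.W)} (h : KUMS S D) (hp : H0 S.kap = ⊥) :
    S.Cech1 0 := by
  by_contra h0
  obtain ⟨φ⟩ := albf K S S.all hp h0
  obtain ⟨π, hπ⟩ := mor' K S S.all φ
  have h1 := (regb K S S.all φ).2
  have h2 : gen ℂ φ.k = 0 := h.gen_zero (φ.pen π hπ)
  omega

/-- The Euler characteristic of the structure sheaf is one. -/
theorem KUMS.good {S : Surf K} {D : Finset (Crv S.W)} (h : KUMS S D) (hp : H0 S.kap = ⊥) :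
    S.Good := by
  refine ⟨?_, hp⟩
  have h1 := (S.all.cech 0).1 (h.cech hp)
  rw [h1, sub_zero, h0_zero S.all.toLoc2, h0, hp]
  simp

end Vale.Agent.P297Z.Sf
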