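import Vale.Agent.P253Y.Kum.Main
import Vale.Agent.P253Y.Spec

/-!
# P253Y, block KUM: the row `KU`
-/

open scoped Manifold ContDiff Bundle ENNReal Topology
open Bundle IsManifold MeasureTheory
open Vale.Agent.P272.K (Cm Chart)
open Vale.Agent.P253Z Vale.Agent.P253Z.T2

namespace Vale.Agent.P253Y.Kum

variable {M : Type} [MetricSpace M] [ChartedSpace (Cm 2) M] [IsManifold 𝓘(ℂ, Cm 2) 1 M]
  [RiemannianBundle (fun x : M => TangentSpace 𝓘(ℝ, Cm 2) x)] [MeasurableSpace M] {μ : Measure M}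

/-- **KU** -/
theorem ku [SimplyConnectedSpace M] (a : B1a 2 M) (aff : AFF 2 μ) (lag : T3.LAG 2 μ) : KU μ :=
  fun p F _ _ _ ff S D _ h => (aff p F).elim fun A => kums a lag A ff S D h

end Vale.Agent.P253Y.Kum
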