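import Vale.Agent.P253Y.Kum.Rel
import Vale.Agent.P253Y.T3.Sk
import Vale.Agent.P253Z.T2.Conn

/-!
# P253Y, block KUM: roots of rational functions on a simply connected surface
-/

open scoped Manifold ContDiff Bundle ENNReal Topology
open Bundle IsManifold MeasureTheory Set Metric Filter Vale.Agent.P253.Mfd
open Vale.Agent.P272.K (Cm Chart)
open Vale.Agent.P253Z Vale.Agent.P253Z.T2
open Vale.Agent.P297Z Vale.Agent.P297Z.Sf

noncomputable section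

namespace Vale.Agent.P253Y.Kum

open VS (ev)

variable {n : ℕ}

/-- The roots of a monic polynomial grow polynomially. -/
theorem Rt.grow {R : Polynomial (Pz n)} (hR : R.Monic) :
    ∃ (C : ℝ) (N : ℕ), ∀ ζ t, ev R ζ t = 0 → ‖t‖ ≤ C * (1 + ‖ζ‖) ^ N := by
  obtain ⟨c, N, -, h⟩ := Cn.pg_sum (Finset.range (R.natDegree + 1)) R.coeff
  refine ⟨2 ^ R.natDegree * c, N, fun ζ t ht => ?_⟩
  have h1 := Cn.coef_le (Polynomial.monic_X_sub_C t) (hR.map (MvPolynomial.eval ζ))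
    (Polynomial.dvd_iff_isRoot.2 ht) 0
  simp only [Polynomial.coeff_sub, Polynomial.coeff_X_zero, Polynomial.coeff_C_zero, zero_sub,
    norm_neg, hR.natDegree_map, Polynomial.coeff_map] at h1
  rw [mul_assoc]
  exact h1.trans (mul_le_mul_of_nonneg_left (h ζ) (by positivity))

variable {M : Type} [MetricSpace M] [ChartedSpace (Cm n) M] [IsManifold 𝓘(ℂ, Cm n) 1 M]
  [RiemannianBundle (fun x : M => TangentSpace 𝓘(ℝ, Cm n) x)] [MeasurableSpace M] {μ : Measure M}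
  {K : Type} [Field K] [Algebra ℂ K]

/-- **KUMM** -/
theorem kums [SimplyConnectedSpace M] (a : B1a n M) (lag : T3.LAG n μ) {p : M} {F : Fr n μ p}
    (A : Aff F) (ff : FF n F.Tame K) (S : Surf K) (D : Finset (Crv S.W))
    (onto : ∀ m, ∃ x : Pt S.W, (∀ C ∈ D, ¬ x.On C) ∧ ff.O m = x.ring) : KUMS S D := by
  refine kums_of a A ff (fun G R hR h1 h2 => ?_) S D onto
  obtain ⟨C, N, h3⟩ := Rt.grow hR
  obtain ⟨R', h4⟩ := lag p F A G C N fun x hx => ⟨h1 x hx, h3 _ _ (h2 x hx)⟩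
  obtain ⟨x, hx⟩ := Function.ne_iff.1 A.σ_ne
  choose z hz using fun i => ff.rat A.m (A.s i) ⟨(A.hs i).1, F.l2 _ A.m_pos _ (A.hs i)⟩ A.s₀
    ⟨A.h₀.1, F.l2 _ A.m_pos _ A.h₀⟩ (Function.ne_iff.2 ⟨x, A.ne₀ x hx⟩)
  obtain ⟨g, hg⟩ := ff.rat A.l A.u A.hu A.v A.hv (Function.ne_iff.2 ⟨x, A.nev x hx⟩)
  obtain ⟨α, β, k⟩ : ∃ α β : K, ∀ y, A.σ y ≠ 0 → α ∈ ff.O y ∧ β ∈ ff.O y ∧ ff.val β y ≠ 0 ∧
      ff.val β y * G y = ff.val α y := by
    refine ⟨R'.eval₂ (MvPolynomial.aeval z : Pz n →ₐ[ℂ] K) g, MvPolynomial.aeval z A.Q ^ 2 *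
      A.P.derivative.eval₂ (MvPolynomial.aeval z : Pz n →ₐ[ℂ] K) g, fun y hy => ?_⟩
    have k0 : ∀ i, z i ∈ ff.O y ∧ ff.val (z i) y = Phi A.s₀ A.s y i := fun i => hz i y (A.ne₀ y hy)
    have k1 := hg y (A.nev y hy)
    have k2 := Rt.val_ev ff k0 k1.1 R'
    have k3 := Rt.val_ev ff k0 k1.1 A.P.derivative
    have k4 := Big.Bk.val_aeval ff k0 A.Q
    rw [ff.val_mul y _ (pow_mem k4.1 2) _ k3.1, Rt.val_pow ff k4.1, k4.2, k3.2, k2.2, k1.2]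
    exact ⟨k2.1, mul_mem (pow_mem k4.1 2) k3.1,
      mul_ne_zero (pow_ne_zero _ (A.neQ y hy)) (A.simple y hy), h4 y hy⟩
  have k5 : ∀ y, A.σ y ≠ 0 → α * β⁻¹ ∈ ff.O y :=
    fun y hy => mul_mem (k y hy).1 (ff.inv y β (k y hy).2.1 (k y hy).2.2.1)
  have β0 : β ≠ 0 := fun e => (k x hx).2.2.1 (by rw [e, Big.Bk.val_zero])
  refine ⟨α * β⁻¹, x, hx, k5 x hx, (VS.ne_nhds a A.hσ.1 hx).mono fun y hy => ?_⟩
  refine mul_left_cancel₀ (k y hy).2.2.1 ?_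
  rw [(k y hy).2.2.2, ← ff.val_mul y _ (k y hy).2.1 _ (k5 y hy), mul_comm, inv_mul_cancel_right₀ β0]

end Vale.Agent.P253Y.Kum
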