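import Vale.Agent.P253Y.Kum.Rt
import Vale.Agent.P253Y.Kum.Defs
import Vale.Agent.P253Z.VS.Loc

/-!
# P253Y, block KUM: local roots on the surface, and the equation of a root
-/

open scoped Manifold ContDiff Bundle ENNReal Topology
open Bundle IsManifold MeasureTheory Set Metric Filter Vale.Agent.P253.Mfd
open Vale.Agent.P272.K (Cm Chart)
open Vale.Agent.P253Z Vale.Agent.P253Z.T2
open Vale.Agent.P297Z Vale.Agent.P297Z.Sf

noncomputable section

namespace Vale.Agent.P253Y.Kum.Rt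

open VS (ev)
open Big.Bk (val_aeval val_zero)

variable {K : Type} [Field K] [Algebra ℂ K]

theorem nrm (S : Surf K) (x : Pt S.W) {N : ℕ} (hN : 1 ≤ N) {g : K} (h : g ^ N ∈ x.ring) :
    g ∈ x.ring := by
  refine (S.all.normal x g).1 (Or.inr fun C hC => ?_)
  have h1 := Pl.ord_nonneg_of_mem C.pl (hC _ h)
  rw [Pl.ord_pow] at h1
  rw [Finsupp.zero_apply, add_zero]
  exact nonneg_of_mul_nonneg_right h1 (by omega)

theorem locr (S : Surf K) (x : Pt S.W) {N : ℕ} {f : K} (f0 : f ≠ 0)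
    (h : ∀ C : Crv S.W, x.On C → (N : ℤ) ∣ C.ord f) :
    ∃ g : K, g ≠ 0 ∧ f / g ^ N ∈ x.ring ∧ (f / g ^ N)⁻¹ ∈ x.ring := by
  have hf : (Function.support fun C : Crv S.W => - (C.ord f / N)).Finite :=
    (S.all.fin_div f).subset fun C hC e => hC (by simp only [e, Int.zero_ediv, neg_zero])
  obtain ⟨g, g0, hg⟩ := S.all.gen x (toDiv fun C => - (C.ord f / N))
  have k : ∀ C : Crv S.W, x.On C → C.ord (f / g ^ N) = 0 := fun C hC => by
    have h1 := hg C hC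
    rw [toDiv_apply hf, ← sub_eq_add_neg, sub_eq_zero] at h1
    rw [Crv.ord, Pl.ord_div _ f0 (pow_ne_zero _ g0), Pl.ord_pow, sub_eq_zero]
    exact (Int.mul_ediv_cancel' (h C hC)).symm.trans (congrArg _ h1.symm)
  refine ⟨g, g0, (S.all.normal x _).1 (Or.inr fun C hC => ?_),
    (S.all.normal x _).1 (Or.inr fun C hC => ?_)⟩
  · rw [k C hC, Finsupp.zero_apply, add_zero]
  · rw [Crv.ord, Pl.ord_inv, ← Crv.ord, k C hC, Finsupp.zero_apply, neg_zero, add_zero]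

variable {n : ℕ} {M : Type} [MetricSpace M] [ChartedSpace (Cm n) M]

section

variable {T : ℕ → Submodule ℂ (M → ℂ)} (ff : FF n T K)

theorem eq_of_val {x : M} {f g : K} (hf : f ∈ ff.O x) (hg : g ∈ ff.O x)
    (h : ∀ᶠ y in 𝓝 x, ff.val f y = ff.val g y) : f = g := by
  refine sub_eq_zero.1 (ff.inj x _ (sub_mem hf hg) ?_)
  filter_upwards [h, ff.nhds x f hf, ff.nhds x g hg] with y h1 h2 h3
  have h4 := ff.val_add y _ (sub_mem h2 h3) _ h3
  rw [sub_add_cancel, h1] at h4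
  exact left_eq_add.1 (h4.trans (add_comm _ _))

theorem val_ev {z : Fin n → K} {y : M} {ζ : Cm n} (h : ∀ i, z i ∈ ff.O y ∧ ff.val (z i) y = ζ i)
    {t : K} (ht : t ∈ ff.O y) (R : Polynomial (Pz n)) :
    R.eval₂ (MvPolynomial.aeval z : Pz n →ₐ[ℂ] K) t ∈ ff.O y ∧
      ff.val (R.eval₂ (MvPolynomial.aeval z : Pz n →ₐ[ℂ] K) t) y = ev R ζ (ff.val t y) := by
  induction R using Polynomial.induction_on' with
  | add P Q h1 h2 =>
    rw [Polynomial.eval₂_add]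
    exact ⟨add_mem h1.1 h2.1, by
      rw [ff.val_add y _ h1.1 _ h2.1, h1.2, h2.2, ev, ev, ev, Polynomial.map_add,
        Polynomial.eval_add]⟩
  | monomial k c =>
    have h1 := val_aeval ff h c
    rw [Polynomial.eval₂_monomial, ev, Polynomial.map_monomial, Polynomial.eval_monomial]
    exact ⟨mul_mem h1.1 (pow_mem ht k), by
      rw [← h1.2, ← val_pow ff ht]
      exact ff.val_mul y _ h1.1 _ (pow_mem ht k)⟩

end

variable [IsManifold 𝓘(ℂ, Cm n) 1 M]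
  [RiemannianBundle (fun x : M => TangentSpace 𝓘(ℝ, Cm n) x)] [MeasurableSpace M] {μ : Measure M}

/-- After clearing the denominator, an element of the field is holomorphic on the affine part and
integral over the polynomials in the coordinates. -/
theorem rel (a : B1a n M) {p : M} {F : Fr n μ p} (A : Aff F) (ff : FF n F.Tame K) (f : K) {N : ℕ}
    (hN : 1 ≤ N) : ∃ (d : K) (R : Polynomial (Pz n)), d ≠ 0 ∧ R.Monic ∧ ∀ y, A.σ y ≠ 0 →
      d ^ N * f ∈ ff.O y ∧ ev R (Phi A.s₀ A.s y) (ff.val (d ^ N * f) y) = 0 := by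
  obtain ⟨x₀, hx₀⟩ := Function.ne_iff.1 A.σ_ne
  choose z hz using fun i => ff.rat A.m (A.s i) ⟨(A.hs i).1, F.l2 _ A.m_pos _ (A.hs i)⟩ A.s₀
    ⟨A.h₀.1, F.l2 _ A.m_pos _ A.h₀⟩ (Function.ne_iff.2 ⟨x₀, A.ne₀ x₀ hx₀⟩)
  obtain ⟨g, hg⟩ := ff.rat A.l A.u A.hu A.v A.hv (Function.ne_iff.2 ⟨x₀, A.nev x₀ hx₀⟩)
  have hz' : ∀ y, A.σ y ≠ 0 → ∀ i, z i ∈ ff.O y ∧ ff.val (z i) y = Phi A.s₀ A.s y i :=
    fun y hy i => hz i y (A.ne₀ y hy)
  have hg' := fun y hy => hg y (A.nev y hy)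
  obtain ⟨m, s, hs, t, ht, t0, hf⟩ := ff.surj f
  obtain ⟨d, d0, R, hR⟩ := A.gen m s hs t ht t0
  obtain ⟨x, hx⟩ := Function.ne_iff.1 (VS.mul_ne a A.hσ.1 ht.1 A.σ_ne t0)
  have x1 : A.σ x ≠ 0 := left_ne_zero_of_mul hx
  have x2 : t x ≠ 0 := right_ne_zero_of_mul hx
  let _ : Algebra (Pz n) K := (MvPolynomial.aeval z : Pz n →ₐ[ℂ] K).toRingHom.toAlgebra
  have k1 : MvPolynomial.aeval z d * f = Polynomial.aeval g R := by
    refine eq_of_val ff (mul_mem (val_aeval ff (hz' x x1) d).1 (hf x x2).1)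
      (val_ev ff (hz' x x1) (hg' x x1).1 R).1 ?_
    filter_upwards [VS.ne_nhds a A.hσ.1 x1, VS.ne_nhds a ht.1 x2] with y h1 h2
    rw [ff.val_mul y _ (val_aeval ff (hz' y h1) d).1 _ (hf y h2).1, (val_aeval ff (hz' y h1) d).2,
      (hf y h2).2, hR y h1 h2, ← (hg' y h1).2]
    exact (val_ev ff (hz' y h1) (hg' y h1).1 R).2.symm
  have k2 : IsIntegral (Pz n) g := ⟨A.P, A.monic, by
    refine ff.inj x _ (val_ev ff (hz' x x1) (hg' x x1).1 A.P).1 ?_
    filter_upwards [VS.ne_nhds a A.hσ.1 x1] with y h1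
    exact (val_ev ff (hz' y h1) (hg' y h1).1 A.P).2.trans ((hg' y h1).2 ▸ A.root y h1)⟩
  have k3 : MvPolynomial.aeval z d ^ N * f =
      MvPolynomial.aeval z d ^ (N - 1) * Polynomial.aeval g R := by
    rw [← k1, ← mul_assoc, ← pow_succ, Nat.sub_add_cancel hN]
  obtain ⟨P, hP, k4⟩ : IsIntegral (Pz n) (MvPolynomial.aeval z d ^ N * f) := by
    rw [k3]
    exact ((isIntegral_algebraMap (x := d)).pow _).mul
      (adjoin_le_integralClosure k2 (Polynomial.aeval_mem_adjoin_singleton _ _))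
  refine ⟨MvPolynomial.aeval z d, P, fun e => d0 ?_, hP, fun y hy => ?_⟩
  · have hQ : A.Q ≠ 0 := fun e => A.neQ x₀ hx₀ (by rw [e, map_zero])
    refine (mul_eq_zero.1 (MvPolynomial.funext fun ζ => ?_)).resolve_right hQ
    rw [map_mul, map_zero, mul_eq_zero, or_iff_not_imp_right]
    intro hζ
    obtain ⟨t, ht⟩ := Big.Bk.exists_root A.monic (A.root x₀ hx₀) ζ
    obtain ⟨x, hx, rfl, -⟩ := A.onto ζ t hζ ht
    rw [← (val_aeval ff (hz' x hx) d).2, e, val_zero]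
  · have k5 : MvPolynomial.aeval z d ^ N * f ∈ ff.O y := k3 ▸ mul_mem
      (pow_mem (val_aeval ff (hz' y hy) d).1 _) (val_ev ff (hz' y hy) (hg' y hy).1 R).1
    exact ⟨k5, (val_ev ff (hz' y hy) k5 P).2.symm.trans ((congrArg (ff.val · y) k4).trans
      (val_zero ff y))⟩

end Vale.Agent.P253Y.Kum.Rt

namespace Vale.Agent.P253Y.Kum

open VS (ev)
open Rt

variable {n : ℕ} {M : Type} [MetricSpace M] [ChartedSpace (Cm n) M] [IsManifold 𝓘(ℂ, Cm n) 1 M]
  [RiemannianBundle (fun x : M => TangentSpace 𝓘(ℝ, Cm n) x)] [MeasurableSpace M] {μ : Measure M}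
  {K : Type} [Field K] [Algebra ℂ K]

/-- Roots of rational functions, from the rationality of the algebraic holomorphic functions on
the affine part. -/
theorem kums_of [SimplyConnectedSpace M] (a : B1a n M) {p : M} {F : Fr n μ p} (A : Aff F)
    (ff : FF n F.Tame K)
    (alg : ∀ (G : M → ℂ) (R : Polynomial (Pz n)), R.Monic →
      (∀ y, A.σ y ≠ 0 → ∀ e : Chart n M, Hc e → y ∈ e.source →
        AnalyticAt ℂ (fun z => G (e.symm z)) (e y)) →
      (∀ y, A.σ y ≠ 0 → ev R (Phi A.s₀ A.s y) (G y) = 0) →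
      ∃ (g : K) (x : M), A.σ x ≠ 0 ∧ g ∈ ff.O x ∧ ∀ᶠ y in 𝓝 x, ff.val g y = G y)
    (S : Surf K) (D : Finset (Crv S.W))
    (onto : ∀ m, ∃ x : Pt S.W, (∀ C ∈ D, ¬ x.On C) ∧ ff.O m = x.ring) : KUMS S D := by
  intro f N f0 hN h
  obtain ⟨d, R, d0, hR, k⟩ := rel a A ff f hN
  have f1 : d ^ N * f ≠ 0 := mul_ne_zero (pow_ne_zero _ d0) f0
  obtain ⟨G, hG⟩ := root a ff f1 hN
    (fun y g hg => by
      obtain ⟨x, -, e⟩ := onto y
      rw [e] at hg ⊢
      exact nrm S x hN hg)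
    fun y => by
      obtain ⟨x, hx, e⟩ := onto y
      rw [e]
      refine locr S x f1 fun C hC => ?_
      rw [Crv.ord, Pl.ord_mul _ (pow_ne_zero _ d0) f0, Pl.ord_pow]
      exact (dvd_mul_right _ _).add (h C fun hD => hx C hD hC)
  obtain ⟨g, x, x1, x2, x3⟩ := alg G (Polynomial.expand _ N R) (hR.expand hN)
    (fun y hy => (hG y (k y hy).1).2) fun y hy => by
      rw [ev, Polynomial.map_expand, Polynomial.expand_eval, (hG y (k y hy).1).1]
      exact (k y hy).2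
  refine ⟨g / d, ?_⟩
  rw [div_pow, eq_of_val ff (pow_mem x2 N) (k x x1).1, mul_div_cancel_left₀ _ (pow_ne_zero _ d0)]
  filter_upwards [x3, ff.nhds x g x2, ff.nhds x _ (k x x1).1] with y h1 h2 h3
  rw [val_pow ff h2, h1, (hG y h3).1]

end Vale.Agent.P253Y.Kum
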