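import Vale.Agent.P253Y.Big.Bk
import Mathlib.Topology.Homotopy.Lifting
import Mathlib.RingTheory.RootsOfUnity.Basic

/-!
# P253Y, block KUM: holomorphic roots on a simply connected manifold
-/

open scoped Manifold ContDiff Bundle ENNReal Topology
open Bundle IsManifold MeasureTheory Set Metric Filter Vale.Agent.P253.Mfd
open Vale.Agent.P272.K (Cm Chart)
open Vale.Agent.P253Z Vale.Agent.P253Z.T2

noncomputable section

namespace Vale.Agent.P253Y.Kum.Rt

/-- Locally constant cocycles on a simply connected space are trivial. -/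
theorem coc {Y A Q : Type} [Group Q] [TopologicalSpace Y] [SimplyConnectedSpace Y]
    [LocallyPathConnectedSpace Y] (U : A → Set Y) (hU : ∀ a, IsOpen (U a))
    (hcov : ∀ y, ∃ a, y ∈ U a) (σ : A → A → Y → Q)
    (hσ : ∀ a b, ∀ y ∈ U a ∩ U b, ∀ᶠ z in 𝓝 y, σ a b z = σ a b y)
    (hc : ∀ a b d y, y ∈ U a → y ∈ U b → y ∈ U d → σ b d y * σ a b y = σ a d y) :
    ∃ ε : A → Y → Q, (∀ a, ∀ y ∈ U a, ∀ᶠ z in 𝓝 y, ε a z = ε a y) ∧
      ∀ a b y, y ∈ U a → y ∈ U b → ε b y = σ a b y * ε a y := by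
  classical
  let _ : TopologicalSpace Q := ⊥
  have : DiscreteTopology Q := ⟨rfl⟩
  choose ix hix using hcov
  have hσ' : ∀ a b, ContinuousOn (σ a b) (U a ∩ U b) := by
    intro a b y hy
    refine ContinuousAt.continuousWithinAt ?_
    have := hσ a b y hy
    exact continuousAt_const.congr (by filter_upwards [this] with z hz; exact hz.symm)
  let Z : FiberBundleCore A Y Q :=
    { baseSet := U
      isOpen_baseSet := hU
      indexAt := ix
      mem_baseSet_at := hix
      coordChange := fun a b y v => σ a b y * v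
      coordChange_self := fun a y hy v => by
        have h := hc a a a y hy hy hy
        have : σ a a y = 1 := mul_eq_left.1 h
        rw [this, one_mul]
      continuousOn_coordChange := fun a b => by
        have h1 : ContinuousOn (fun p : Y × Q => (σ a b p.1, p.2)) ((U a ∩ U b) ×ˢ Set.univ) :=
          ((hσ' a b).comp continuousOn_fst fun p hp => hp.1).prodMk continuousOn_snd
        have h2 : Continuous fun p : Q × Q => p.1 * p.2 := continuous_of_discreteTopology
        exact h2.comp_continuousOn h1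
      coordChange_comp := fun a b d y hy v => by
        rw [← mul_assoc, hc a b d y hy.1.1 hy.1.2 hy.2] }
  have hcm : IsCoveringMap (Bundle.TotalSpace.proj : Bundle.TotalSpace Q Z.Fiber → Y) :=
    FiberBundle.isCoveringMap
  obtain ⟨y₀⟩ := (inferInstance : Nonempty Y)
  obtain ⟨s, ⟨-, hs⟩, -⟩ := hcm.existsUnique_continuousMap_lifts (ContinuousMap.id Y) y₀
    (⟨y₀, (1 : Q)⟩ : Bundle.TotalSpace Q Z.Fiber) rfl
  have hs' : ∀ y, (s y).1 = y := fun y => congrFun hs y
  refine ⟨fun a y => (Z.localTriv a (s y)).2, fun a y hy => ?_, fun a b y ha hb => ?_⟩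
  · have h1 : ContinuousOn (fun y => (Z.localTriv a (s y)).2) (U a) := by
      refine continuousOn_snd.comp ((Z.localTriv a).continuousOn_toFun.comp
        s.continuous.continuousOn fun y hy => ?_) fun _ _ => Set.mem_univ _
      rw [Bundle.Trivialization.mem_source]
      change (s y).1 ∈ U a
      rwa [hs' y]
    exact (h1.continuousAt ((hU a).mem_nhds hy)).eventually_mem
      ((isOpen_discrete {(Z.localTriv a (s y)).2}).mem_nhds rfl)
  · let v : Q := (s y).2
    have h1 : (Z.localTriv a (s y)).2 = σ (ix (s y).1) a (s y).1 * v := rfl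
    have h2 : (Z.localTriv b (s y)).2 = σ (ix (s y).1) b (s y).1 * v := rfl
    dsimp only
    rw [h1, h2, ← mul_assoc, hs' y, hc (ix y) a b y (hix y) ha hb]

/-- The same for cocycles of roots of unity. -/
theorem coc' {Y A : Type} [TopologicalSpace Y] [SimplyConnectedSpace Y]
    [LocallyPathConnectedSpace Y] {N : ℕ} (hN : 1 ≤ N) (U : A → Set Y) (hU : ∀ a, IsOpen (U a))
    (hcov : ∀ y, ∃ a, y ∈ U a) (τ : A → A → Y → ℂ)
    (h1 : ∀ a b y, y ∈ U a → y ∈ U b → τ a b y ^ N = 1 ∧ ContinuousAt (τ a b) y)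
    (hc : ∀ a b d y, y ∈ U a → y ∈ U b → y ∈ U d → τ b d y * τ a b y = τ a d y) :
    ∃ ε : A → Y → ℂ, (∀ a y, ε a y ^ N = 1) ∧ (∀ a, ∀ y ∈ U a, ∀ᶠ z in 𝓝 y, ε a z = ε a y) ∧
      ∀ a b y, y ∈ U a → y ∈ U b → ε b y = τ a b y * ε a y := by
  classical
  have : NeZero N := ⟨by omega⟩
  let un : ℂ → rootsOfUnity N ℂ := fun z =>
    if h : z ^ N = 1 then rootsOfUnity.mkOfPowEq z h else 1
  have hun : ∀ z, z ^ N = 1 → (((un z : rootsOfUnity N ℂ) : ℂˣ) : ℂ) = z := fun z h => by
    simp only [un, dif_pos h, rootsOfUnity.coe_mkOfPowEq]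
  have hf : {z : ℂ | z ^ N = 1}.Finite :=
    (Polynomial.nthRootsFinset N (1 : ℂ)).finite_toSet.subset fun z hz =>
      (Polynomial.mem_nthRootsFinset hN 1).2 hz
  obtain ⟨ε, k1, k2⟩ := coc U hU hcov (fun a b y => un (τ a b y)) (fun a b y hy => by
    filter_upwards [(h1 a b y hy.1 hy.2).2.eventually_mem
      ((hf.sdiff (t := {τ a b y})).isClosed.isOpen_compl.mem_nhds fun h => h.2 rfl),
      ((hU a).inter (hU b)).mem_nhds hy] with z h2 h3
    rw [not_not.1 fun h => h2 ⟨(h1 a b z h3.1 h3.2).1, h⟩])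
    fun a b d y ha hb hd => Subtype.ext (Units.ext (by
      rw [Subgroup.coe_mul, Units.val_mul, hun _ (h1 b d y hb hd).1, hun _ (h1 a b y ha hb).1,
        hun _ (h1 a d y ha hd).1, hc a b d y ha hb hd]))
  refine ⟨fun a y => ((ε a y : ℂˣ) : ℂ), fun a y => ?_,
    fun a y hy => (k1 a y hy).mono fun z hz => by simp only [hz], fun a b y ha hb => ?_⟩
  · rw [← Units.val_pow_eq_pow_val, (mem_rootsOfUnity _ _).1 (ε a y).2, Units.val_one]
  · simp only [k2 a b y ha hb, Subgroup.coe_mul, Units.val_mul, hun _ (h1 a b y ha hb).1]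

variable {n : ℕ} {M : Type} [MetricSpace M] [ChartedSpace (Cm n) M]
  {T : ℕ → Submodule ℂ (M → ℂ)} {K : Type} [Field K] [Algebra ℂ K]

theorem val_one (ff : FF n T K) (y : M) : ff.val 1 y = 1 := by
  simpa using ff.val_const y 1

theorem val_pow (ff : FF n T K) {y : M} {f : K} (h : f ∈ ff.O y) (N : ℕ) :
    ff.val (f ^ N) y = ff.val f y ^ N := by
  induction N with
  | zero => rw [pow_zero, pow_zero, val_one]
  | succ N ih => rw [pow_succ, pow_succ, ff.val_mul y _ (pow_mem h N) _ h, ih]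

theorem val_ne (ff : FF n T K) {y : M} {f : K} (h0 : f ≠ 0) (h : f ∈ ff.O y)
    (h' : f⁻¹ ∈ ff.O y) : ff.val f y ≠ 0 :=
  left_ne_zero_of_mul_eq_one (by rw [← ff.val_mul y _ h _ h', mul_inv_cancel₀ h0, val_one])

theorem cont_an (a : B1a n M) {u : M → ℂ} {x : M} (h : ∀ e : Chart n M, Hc e → x ∈ e.source →
    AnalyticAt ℂ (fun z => u (e.symm z)) (e x)) : ContinuousAt u x := by
  have hx := mem_chart_source (Cm n) x
  refine ((h _ (a.chart x) hx).continuousAt.comp ((chartAt (Cm n) x).continuousAt hx)).congr ?_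
  filter_upwards [(chartAt (Cm n) x).open_source.mem_nhds hx] with y hy
  simp only [Function.comp, (chartAt (Cm n) x).left_inv hy]

/-- A function that is locally a unit times an `N`-th power has a holomorphic `N`-th root. -/
theorem root [SimplyConnectedSpace M] (a : B1a n M) (ff : FF n T K) {f : K} {N : ℕ} (f0 : f ≠ 0)
    (hN : 1 ≤ N) (nrm : ∀ y g, g ^ N ∈ ff.O y → g ∈ ff.O y)
    (loc : ∀ y, ∃ h : K, h ≠ 0 ∧ f / h ^ N ∈ ff.O y ∧ (f / h ^ N)⁻¹ ∈ ff.O y) :
    ∃ G : M → ℂ, ∀ y, f ∈ ff.O y → G y ^ N = ff.val f y ∧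
      ∀ e : Chart n M, Hc e → y ∈ e.source → AnalyticAt ℂ (fun z => G (e.symm z)) (e y) := by
  have := ChartedSpace.locallyPathConnectedSpace (Cm n) M
  choose h h0 hu hu' using loc
  obtain ⟨u, hud⟩ : ∃ u : M → K, ∀ m, u m = f / h m ^ N := ⟨_, fun _ => rfl⟩
  simp only [← hud] at hu hu'
  have u0 : ∀ m, u m ≠ 0 := fun m => hud m ▸ div_ne_zero f0 (pow_ne_zero _ (h0 m))
  have c0 : ∀ m, ff.val (u m) m ≠ 0 := fun m => val_ne ff (u0 m) (hu m) (hu' m)
  obtain ⟨U, hU, hm, hV⟩ : ∃ U : M → Set M, (∀ m, IsOpen (U m)) ∧ (∀ m, m ∈ U m) ∧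
      ∀ m, ∀ y ∈ U m, u m ∈ ff.O y ∧ (u m)⁻¹ ∈ ff.O y ∧
        ff.val (u m) y / ff.val (u m) m ∈ Complex.slitPlane := by
    refine ⟨fun m => interior {y | u m ∈ ff.O y ∧ (u m)⁻¹ ∈ ff.O y ∧
      ff.val (u m) y / ff.val (u m) m ∈ Complex.slitPlane}, fun _ => isOpen_interior,
      fun m => mem_interior_iff_mem_nhds.2 ((ff.nhds m _ (hu m)).and ((ff.nhds m _ (hu' m)).and
        ?_)), fun m y hy => (interior_subset hy :)⟩
    exact ((Big.Bk.val_cont a ff (hu m)).div_const _).eventually_mem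
      (Complex.isOpen_slitPlane.mem_nhds (by rw [div_self (c0 m)]; exact Complex.one_mem_slitPlane))
  obtain ⟨r, r1, r2⟩ : ∃ r : M → M → ℂ, (∀ m, ∀ y ∈ U m, r m y ^ N = ff.val (u m) y) ∧
      ∀ m, ∀ y ∈ U m, ∀ e : Chart n M, Hc e → y ∈ e.source →
        AnalyticAt ℂ (fun z => r m (e.symm z)) (e y) := by
    refine ⟨fun m y => Complex.exp ((Complex.log (ff.val (u m) m) +
      Complex.log (ff.val (u m) y / ff.val (u m) m)) / N), fun m y hy => ?_,
      fun m y hy e he hye => ?_⟩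
    · rw [← Complex.exp_nat_mul, mul_div_cancel₀ _ (Nat.cast_ne_zero.2 (by omega)),
        Complex.exp_add, Complex.exp_log (c0 m),
        Complex.exp_log (Complex.slitPlane_ne_zero (hV m y hy).2.2), mul_div_cancel₀ _ (c0 m)]
    · refine ((analyticAt_const.add (((ff.hol y _ (hV m y hy).1 e he hye).div_const).clog
        ?_)).div_const).cexp
      rw [e.left_inv hye]
      exact (hV m y hy).2.2
  have v0 : ∀ m, ∀ y ∈ U m, ff.val (u m) y ≠ 0 :=
    fun m y hy => val_ne ff (u0 m) (hV m y hy).1 (hV m y hy).2.1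
  have r0 : ∀ m, ∀ y ∈ U m, r m y ≠ 0 := fun m y hy e =>
    v0 m y hy (by rw [← r1 m y hy, e, zero_pow (by omega)])
  have q1 : ∀ b d, (h d / h b) ^ N * u d = u b := fun b d => by
    have := h0 b
    have := h0 d
    rw [hud, hud, div_pow]
    field_simp
  have q2 : ∀ b d y, y ∈ U b → y ∈ U d → h d / h b ∈ ff.O y := fun b d y hb hd =>
    nrm y _ (by
      rw [(eq_mul_inv_iff_mul_eq₀ (u0 d)).2 (q1 b d)]
      exact mul_mem (hV b y hb).1 (hV d y hd).2.1)
  obtain ⟨ε, e1, e2, e3⟩ := coc' hN U hU (fun y => ⟨y, hm y⟩)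
    (fun b d y => r d y * ff.val (h d / h b) y / r b y) (fun b d y hb hd => ⟨by
      rw [div_pow, mul_pow, r1 b y hb, r1 d y hd, ← val_pow ff (q2 b d y hb hd), mul_comm,
        ← ff.val_mul y _ (pow_mem (q2 b d y hb hd) N) _ (hV d y hd).1, q1, div_self (v0 b y hb)],
      ((cont_an a (r2 d y hd)).mul (Big.Bk.val_cont a ff (q2 b d y hb hd))).div
        (cont_an a (r2 b y hb)) (r0 b y hb)⟩)
    fun b c d y hb hc hd => by
      have k : h d / h b = h d / h c * (h c / h b) := by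
        rw [div_mul_div_cancel₀ (h0 c)]
      have := r0 b y hb
      have := r0 c y hc
      rw [k, ff.val_mul y _ (q2 c d y hc hd) _ (q2 b c y hb hc)]
      field_simp
  have ε0 : ∀ m y, ε m y ≠ 0 := fun m y e => by
    have := e1 m y
    rw [e, zero_pow (by omega)] at this
    exact zero_ne_one this
  have q3 : ∀ m, h m ^ N * u m = f := fun m => by
    rw [hud, mul_div_cancel₀ _ (pow_ne_zero _ (h0 m))]
  have q4 : ∀ m, ∀ y ∈ U m, f ∈ ff.O y → h m ∈ ff.O y := fun m y hy hf =>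
    nrm y _ (by
      rw [(eq_mul_inv_iff_mul_eq₀ (u0 m)).2 (q3 m)]
      exact mul_mem hf (hV m y hy).2.1)
  refine ⟨fun y => r y y * ff.val (h y) y / ε y y, fun y hy => ⟨?_, fun e he hye => ?_⟩⟩
  · rw [div_pow, e1, div_one, mul_pow, r1 y y (hm y), ← val_pow ff (q4 y y (hm y) hy), mul_comm,
      ← ff.val_mul y _ (pow_mem (q4 y y (hm y) hy) N) _ (hu y), q3]
  · refine (((r2 y y (hm y) e he hye).mul
      (ff.hol y _ (q4 y y (hm y) hy) e he hye)).div_const (c := ε y y)).congr ?_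
    filter_upwards [(e.tendsto_symm hye).eventually (((e2 y y (hm y)).and (ff.nhds y f hy)).and
      ((hU y).mem_nhds (hm y)))] with w hw
    simp only [Pi.mul_apply]
    generalize e.symm w = z at hw ⊢
    obtain ⟨⟨k1, k2⟩, k3⟩ := hw
    have k4 := e3 z y z (hm z) k3
    have k5 : ff.val (h y) z = ff.val (h y / h z) z * ff.val (h z) z := by
      rw [← ff.val_mul z _ (q2 z y z (hm z) k3) _ (q4 z z (hm z) k2), div_mul_cancel₀ _ (h0 z)]
    have k6 := r0 z z (hm z)
    have k7 := ε0 z z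
    have k8 : r y z * ff.val (h y / h z) z ≠ 0 := fun e => ε0 y z (by rw [k4, e]; simp)
    have k9 := left_ne_zero_of_mul k8
    have k10 := right_ne_zero_of_mul k8
    rw [← k1, k4, k5]
    field_simp

end Vale.Agent.P253Y.Kum.Rt
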